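import Vale.Agent.P290Z.Top.HR

/-! P290Z, part III: change of the marking by an isometry of the lattice. -/

set_option linter.unusedSectionVars false

open scoped Manifold ContDiff Matrix
open Set

noncomputable section

namespace Vale.Agent.P290Z.Top

open Vale.Agent.P267.FL Vale.Agent.P267.BlockC Vale.Agent.P267.RR Vale.Agent.P267.H332
open Vale.Agent.P290.H342 Vale.Agent.P290.H726 Vale.Agent.P290Z.Lat

namespace HR

theorem act_act {N : ℕ} {R : Type} [CommRing R] {g h : Matrix (Fin N) (Fin N) ℤ} (e : g * h = 1)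
    (x : Fin N → R) : act g (act h x) = x := by
  funext i
  have h1 : ∀ k, ∑ j, (g i j : R) * (h j k : R) = if i = k then 1 else 0 := fun k => by
    have h2 := congrArg (fun n : ℤ => (n : R)) (congrFun (congrFun e i) k)
    simpa [Matrix.mul_apply, Matrix.one_apply] using h2
  simp only [act, Finset.mul_sum, ← mul_assoc]
  rw [Finset.sum_comm]
  simp only [← Finset.sum_mul, h1]
  simp

theorem act_cast {N : ℕ} (g : Matrix (Fin N) (Fin N) ℤ) (k : Fin N → ℤ) :
    (fun i => ((act g k i : ℤ) : ℂ)) = act g fun i => (k i : ℂ) := by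
  funext i
  simp [act]

variable {Y : Type} [TopologicalSpace Y] [ChartedSpace C2 Y] [IsManifold 𝓘(ℂ, C2) ω Y]

theorem exact_sum {ι : Type} (S : Finset ι) {F : ι → TwoF Y} (h : ∀ i, ExactTwo (F i)) :
    ExactTwo (∑ i ∈ S, F i) :=
  Finset.sum_induction F ExactTwo (fun _ _ => exact_add) exactTwo_zero fun i _ => h i

theorem exact_trans {A B C : TwoF Y} (h : ExactTwo (A - B)) (h' : ExactTwo (B - C)) :
    ExactTwo (A - C) := by
  have := exact_add h h'
  rwa [sub_add_sub_cancel] at this

theorem exact_symm {A B : TwoF Y} (h : ExactTwo (A - B)) : ExactTwo (B - A) := by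
  have := exact_neg h
  rwa [neg_sub] at this

variable {N : ℕ} (U : UData Y N) {h : Matrix (Fin N) (Fin N) ℤ} {E : Fin N → ALB Y}

theorem comb_new (hE : ∀ i, U.HasCl (E i).L.curv fun j => h j i) (t : Fin N → ℂ) :
    ExactTwo (∑ i, t i • (E i).L.curv - U.combC (act h t)) := by
  have h1 : U.combC (act h t) = ∑ i, t i • U.comb fun j => h j i := by
    simp only [UData.comb, UData.combC, act, Finset.sum_smul, Finset.smul_sum, smul_smul]
    rw [Finset.sum_comm]
    exact Finset.sum_congr rfl fun i _ => Finset.sum_congr rfl fun j _ => by rw [mul_comm]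
  rw [h1, ← Finset.sum_sub_distrib]
  refine exact_sum _ fun i => ?_
  rw [← smul_sub]
  exact exact_smul _ (hE i)

end HR

open HR

/-- **REM** -/
theorem rem : StRem := by
  intro Z N U g ⟨hg, h, gh, hg'⟩
  choose E hE using fun i => U.surj fun j => h j i
  have key : ∀ t : Fin N → ℂ, ExactTwo (∑ i, t i • (E i).L.curv - U.combC (act h t)) :=
    comb_new U hE
  have key' : ∀ s : Fin N → ℂ, ExactTwo (∑ i, act g s i • (E i).L.curv - U.combC s) := fun s => by
    have h1 := key (act g s)
    rwa [act_act hg'] at h1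
  have hG : hᵀ * U.G * h = U.G := by
    conv_lhs => rw [← hg]
    rw [← mul_assoc, ← mul_assoc, ← Matrix.transpose_mul, gh, mul_assoc, mul_assoc, gh,
      Matrix.transpose_one, one_mul, mul_one]
  refine ⟨⟨E, U.G, fun i j => ?_, U.unit, fun F hF hc => ?_, fun L => ?_, fun k => ?_⟩, rfl, key'⟩
  · rw [U.isec_c1 intAx (lbF _), U.c1_eq (lbF _) _ (hE i), U.c1_eq (lbF _) _ (hE j), U.B_apply]
    congr 1
    conv_rhs => rw [← hG]
    simp only [Matrix.mul_apply, Matrix.transpose_apply, Finset.sum_mul]
    exact Finset.sum_comm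
  · obtain ⟨s, hs, hu⟩ := U.span F hF hc
    refine ⟨act g s, exact_trans hs (exact_symm (key' s)), fun t ht => ?_⟩
    rw [← hu _ (exact_trans ht (key t)), act_act gh]
  · obtain ⟨k, hk⟩ := U.mem L
    refine ⟨act g k, exact_trans hk (exact_symm ?_)⟩
    have h1 := key' fun i => (k i : ℂ)
    rwa [← act_cast] at h1
  · obtain ⟨L, hL⟩ := U.surj (act h k)
    refine ⟨L, exact_trans hL (exact_symm ?_)⟩
    have h1 := key fun i => (k i : ℂ)
    rwa [← act_cast] at h1

end Vale.Agent.P290Z.Top
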