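import Vale.Agent.P290Z.Spec3
import Vale.Agent.P267.H332.Pair.IntAx
import Vale.Agent.P267.H469.CalcInst

/-! P290Z, part III: the period of a K3 surface and the bilinear relations. -/

set_option linter.unusedSectionVars false

open scoped Manifold ContDiff ComplexConjugate
open Set

noncomputable section

namespace Vale.Agent.P290Z.Top

open Vale.Agent.P267.FL Vale.Agent.P267.BlockC Vale.Agent.P267.RR Vale.Agent.P267.H332
open Vale.Agent.P267.H757 Vale.Agent.P267.H469 Vale.Agent.P290.H342 Vale.Agent.P290.H726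
open Vale.Agent.P290Z.W.Kur Vale.Agent.P290Z.Lat

namespace HR

section gen

variable {Y : Type} [TopologicalSpace Y] [ChartedSpace C2 Y] [IsManifold 𝓘(ℂ, C2) ω Y]

theorem lbF (Y : Type) [TopologicalSpace Y] [ChartedSpace C2 Y] [IsManifold 𝓘(ℂ, C2) ω Y] :
    LBFacts Y where
  smooth L := L.L.curv_smooth
  closed L := L.L.curv_closed
  tensor L L' := by
    apply TwoF.ext
    · funext x; exact L.L.F20_tensor L'.L x
    · funext x; ext i j; exact L.L.F11_tensor L'.L x i j
    · funext x; exact L.L.F02_tensor L'.L x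
  dual L := by
    apply TwoF.ext
    · funext x; exact L.L.F20_dual x
    · funext x; ext i j; exact L.L.F11_dual x i j
    · funext x; exact L.L.F02_dual x

/-- a smooth two-form as a triple -/
def om2 (F : TwoF Y) (hF : F.Smooth) : Om2 Y := (⟨F.f20, hF.s20⟩, ⟨F.f11, hF.s11⟩, ⟨F.f02, hF.s02⟩)

theorem bar_smooth {F : TwoF Y} (hF : F.Smooth) : F.bar.Smooth := toF_smooth (C2L (om2 F hF))

theorem exact_bar {F : TwoF Y} (h : ExactTwo F) : ExactTwo F.bar := by
  rw [exactTwo_iff] at h ⊢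
  obtain ⟨A, rfl⟩ := h
  exact ⟨C1L A, by rw [D1_C]; rfl⟩

theorem bar_add (F G : TwoF Y) : (F + G).bar = F.bar + G.bar := by
  apply TwoF.ext
  · funext x
    exact map_add conj (F.f02 x) (G.f02 x)
  · funext x
    ext i j
    change -conj (F.f11 x j i + G.f11 x j i) = -conj (F.f11 x j i) + -conj (G.f11 x j i)
    rw [map_add, neg_add]
  · funext x
    exact map_add conj (F.f20 x) (G.f20 x)

theorem bar_smul (c : ℂ) (F : TwoF Y) : (c • F).bar = conj c • F.bar := by
  apply TwoF.ext
  · funext x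
    exact map_mul conj c (F.f02 x)
  · funext x
    ext i j
    change -conj (c * F.f11 x j i) = conj c * -conj (F.f11 x j i)
    rw [map_mul, mul_neg]
  · funext x
    exact map_mul conj c (F.f20 x)

/-- conjugation as an additive map -/
def barH : TwoF Y →+ TwoF Y := AddMonoidHom.mk' TwoF.bar bar_add

theorem bar_curv (L : ALB Y) : L.L.curv.bar = -L.L.curv := by
  apply TwoF.ext
  · funext x
    change conj (L.L.F02 x) = -L.L.F20 x
    rw [L.L.F20_eq_neg_conj x, neg_neg]
  · funext x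
    ext i j
    change -conj (L.L.F11 x j i) = -L.L.F11 x i j
    rw [L.L.F11_swap x i j, Complex.conj_conj]
  · funext x
    change conj (L.L.F20 x) = -L.L.F02 x
    rw [L.L.F02_eq_neg_conj x, neg_neg]

variable {N : ℕ} (U : UData Y N)

theorem combC_bar (s : Fin N → ℂ) : (U.combC s).bar = U.combC (-vcj s) := by
  change barH (∑ i, s i • (U.E i).L.curv) = ∑ i, (-conj (s i)) • (U.E i).L.curv
  rw [map_sum]
  refine Finset.sum_congr rfl fun i _ => ?_
  change (s i • (U.E i).L.curv).bar = _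
  rw [bar_smul, bar_curv, smul_neg, neg_smul]

theorem class_bar {F : TwoF Y} {s : Fin N → ℂ} (h : ExactTwo (F - U.combC s)) :
    ExactTwo (F.bar - U.combC (-vcj s)) := by
  have h1 : (F - U.combC s).bar = F.bar - (U.combC s).bar := map_sub barH F (U.combC s)
  rw [← combC_bar, ← h1]
  exact exact_bar h

variable [T2Space Y] [CompactSpace Y]

theorem exact_smooth {F : TwoF Y} (h : ExactTwo F) : F.Smooth := by
  obtain ⟨A, rfl⟩ := exactTwo_iff.1 h
  exact toF_smooth _

/-- cohomologous forms have the same pairings -/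
theorem pair_congr {F F' G : TwoF Y} (hF' : F'.Smooth) (h : ExactTwo (F - F')) (hG : G ∈ HC Y) :
    pair F G = pair F' G := by
  have h2 : F = (F - F') + F' := by abel
  rw [h2, pair_add_left intAx (exact_smooth h) hF' hG.1, pair_exact intAx h hG, zero_add]

/-- the pairing in coordinates; only one of the two forms has to be known as closed -/
theorem pair_coord {F G : TwoF Y} (hF : F ∈ HC Y) {s t : Fin N → ℂ}
    (hs : ExactTwo (F - U.combC s)) (ht : ExactTwo (G - U.combC t)) :
    pair F G = -(4 * (Real.pi : ℂ) ^ 2) * bil U.G s t := by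
  have h1 := U.combC_mem (lbF Y) s
  have h2 := U.combC_mem (lbF Y) t
  rw [P290.H342.pair_comm, pair_congr h2.1 ht hF, P290.H342.pair_comm, pair_congr h1.1 hs h2,
    U.pair_combC (lbF Y) intAx, bil]
  congr 1
  exact Finset.sum_congr rfl fun i _ => Finset.sum_congr rfl fun j _ => by ring

theorem pi_ne : -(4 * (Real.pi : ℂ) ^ 2) ≠ 0 := by
  have : (Real.pi : ℂ) ≠ 0 := by exact_mod_cast Real.pi_ne_zero
  simp [this]

end gen

section K3

variable (Z : W.K3)

theorem dbar_Om (x : Z.X) (i : Fin 2) : dbar0 1 (W.H445.Om Z) x i = 0 := by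
  have h1 := W.H445.HolOn_Om Z _ (chart_mem_atlas C2 x)
  rw [preimage_univ, inter_univ] at h1
  exact dzb_of_hol (h1.differentiableAt
    ((chartAt C2 x).open_target.mem_nhds (mem_chart_target C2 x))) i

/-- the holomorphic two-form as a triple -/
def omL : Om2 Z.X := (⟨W.H445.Om Z, W.H445.Reg0_Om Z⟩, 0, 0)

theorem toF_omL : toF (omL Z) = omF Z := rfl

theorem omF_smooth : (omF Z).Smooth := toF_smooth (omL Z)

theorem omF_closed : (omF Z).Closed := by
  have h21 : (omF Z).d21 = ((D2 (omL Z)).1 : Z.X → Fin 2 → ℂ) := rfl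
  have h12 : (omF Z).d12 = ((D2 (omL Z)).2 : Z.X → Fin 2 → ℂ) := d12_eq (omF Z)
  have e1 : (D2 (omL Z)).1 = 0 := by
    have h1 : (dbar20L (⟨W.H445.Om Z, W.H445.Reg0_Om Z⟩ : S20 Z.X)) = 0 := by
      refine Subtype.ext ?_
      funext x i
      exact dbar_Om Z x i
    change dbar20L (⟨W.H445.Om Z, W.H445.Reg0_Om Z⟩ : S20 Z.X) + del11L 0 = 0
    rw [h1, map_zero, add_zero]
  have e2 : (D2 (omL Z)).2 = 0 := by
    change dbar11L (0 : S11 Z.X) + del02L (0 : S02 Z.X) = 0
    rw [map_zero, map_zero, add_zero]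
  refine ⟨fun x j => ?_, fun x i => ?_⟩
  · rw [h21, e1]; rfl
  · rw [h12, e2]; rfl

theorem omF_mem : omF Z ∈ HC Z.X := mem_HC_iff.2 ⟨omF_smooth Z, omF_closed Z⟩

theorem pair_omF_self : pair (omF Z) (omF Z) = 0 := by
  have h : (omF Z).wedge (omF Z) = fun _ => 0 := by
    funext x
    simp [TwoF.wedge, omF]
  have h1 := pair_smul_left (Y := Z.X) intAx 0 (omF_smooth Z) (omF_smooth Z)
  rw [zero_mul, pair, wedge_smul_left] at h1
  simp only [zero_mul] at h1
  rw [pair, h]
  exact h1

theorem pair_omF_bar_pos : 0 < (pair (omF Z) (omF Z).bar).re := by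
  by_contra hcon
  have h0 : omL Z = 0 := pos20L (omL Z) rfl (not_lt.1 hcon)
  obtain ⟨x⟩ : Nonempty Z.X := inferInstance
  exact W.H445.Om_ne_zero Z x (congrArg (fun F : Om2 Z.X => (F.1 : Z.X → ℂ) x) h0)

end K3

end HR

open HR

/-- **HR** -/
theorem hr : StHR := by
  intro Z N U
  refine ⟨(U.span _ (omF_smooth Z) (omF_closed Z)).exists, fun s hs => ⟨?_, ?_⟩⟩
  · have h := pair_coord U (omF_mem Z) hs hs
    rw [pair_omF_self] at h
    exact (mul_eq_zero.1 h.symm).resolve_left pi_ne
  · have h := pair_omF_bar_pos Z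
    have h1 : (4 * (Real.pi : ℂ) ^ 2) = ((4 * Real.pi ^ 2 : ℝ) : ℂ) := by push_cast; ring
    rw [pair_coord U (omF_mem Z) hs (class_bar U hs), bil_neg_right, neg_mul_neg, h1,
      Complex.re_ofReal_mul] at h
    exact (mul_pos_iff_of_pos_left (by positivity)).1 h

theorem omF_scale (Z : W.K3) (c : ℂ) (hc : c ≠ 0) : omF (scale Z c hc) = (c • omF Z : TwoF Z.X) :=
  TwoF.ext (X := Z.X) rfl (smul_zero (A := Z.X → Matrix (Fin 2) (Fin 2) ℂ) c).symm
    (smul_zero (A := Z.X → ℂ) c).symm

theorem prd_scale {Z : W.K3} {N : ℕ} {U : UData Z.X N} {s : Fin N → ℂ} {c : ℂ} (hc : c ≠ 0)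
    (h : Prd Z U s) : Prd (scale Z c hc) U (c • s) := by
  have h1 : ExactTwo (c • (omF Z - U.combC s)) := exact_smul c h
  rw [smul_sub, ← U.combC_smul, ← omF_scale Z c hc] at h1
  exact h1

end Vale.Agent.P290Z.Top
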