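import Vale.Agent.P290Z.Spec3
import Vale.Agent.P290Z.Lat.Basic

/-! P290Z, part III, AK: from the approximation of the periods to the approximation of the
surfaces. -/

open Set Filter Metric
open scoped Topology Manifold ContDiff

namespace Vale.Agent.P290Z.Top

open Vale.Agent.P290 Vale.Agent.P267
open Vale.Agent.P290Z.W Vale.Agent.P290Z.W.Kur Vale.Agent.P290Z.W.BR Vale.Agent.P290Z.Lat
open Vale.Agent.P290.H342 (UData)

theorem StNik.of_eq (h : StNik) {Z : W.K3} {N : ℕ} (U : UData Z.X N)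
    {G : Matrix (Fin N) (Fin N) ℤ} (hG : U.G = G) (κ : KConf G) {s : Fin N → ℂ} (hs : Prd Z U s)
    (hκ : GenK κ s) : All.IsKummer Z.X := by
  subst hG
  exact h Z N U κ s hs hκ

/-- the period in another marking -/
theorem StRem.prd (h : StRem) {Z : W.K3} {N : ℕ} (U : UData Z.X N) {s : Fin N → ℂ}
    (hs : Prd Z U s) {g : Matrix (Fin N) (Fin N) ℤ} (hg : Isom U.G U.G g) :
    ∃ U' : UData Z.X N, U'.G = U.G ∧ Prd Z U' (act g s) := by
  obtain ⟨U', h1, h2⟩ := h Z N U g hg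
  refine ⟨U', h1, ?_⟩
  have h3 := H342.exact_sub hs (h2 s)
  rw [sub_sub_sub_cancel_right] at h3
  exact h3

/-- points of the closure of the orbit are limits of points of the orbit in the cone -/
theorem exists_seq_cone {N : ℕ} {G : Matrix (Fin N) (Fin N) ℤ} {s t : Fin N → ℂ} {r : ℝ}
    (hs : s ∈ Cone G s r) (ht : t ∈ Cl G ∅ s) (ht' : t ∈ Cone G s r) :
    ∃ a : ℕ → Cone G s r, Tendsto a atTop (𝓝 ⟨t, ht'⟩) ∧
      ∀ n, ∃ g, Isom G G g ∧ (a n : Fin N → ℂ) = act g s := by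
  have h1 : t ∈ closure (ball s r ∩ Orb G ∅ s) :=
    isOpen_ball.inter_closure ⟨mem_ball_iff_norm.2 ht'.2, ht⟩
  obtain ⟨p, hp, hlim⟩ := mem_closure_iff_seq_limit.1 h1
  have h2 : ∀ n, p n ∈ Cone G s r := fun n => by
    obtain ⟨g, hg, -, e⟩ := (hp n).2
    refine ⟨?_, mem_ball_iff_norm.1 (hp n).1⟩
    rw [e, hg.bil]
    exact hs.1
  refine ⟨fun n => ⟨p n, h2 n⟩, tendsto_subtype_rng.2 hlim, fun n => ?_⟩
  obtain ⟨g, hg, -, e⟩ := (hp n).2
  exact ⟨g, hg, e⟩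

/-- AK from FAM, REM, NIK and TOR -/
theorem ak (hF : StFam) (hR : StRem) (hN : StNik) (hT : StTor) : StAK := by
  intro Z N U s hG hs hA
  obtain ⟨r, hr, M, h₀, V, -, hV⟩ := hF Z N U s hs
  obtain ⟨t, ht, htr, htp, κ, hκ⟩ := hA r hr
  have ht' : t ∈ Cone U.G s r := ⟨htp.1, htr⟩
  obtain ⟨a, ha, ha'⟩ := exists_seq_cone h₀ ht ht'
  refine ⟨Z, Cone U.G s r, inferInstance, inferInstance, M.toMPre, ⟨t, ht'⟩, a,
    hN.of_eq (V ⟨t, ht'⟩) (hV ⟨t, ht'⟩).1 κ (hV ⟨t, ht'⟩).2.1 hκ, ha, fun n => ?_⟩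
  obtain ⟨g, hg, e⟩ := ha' n
  obtain ⟨U', h1, h2⟩ := hR.prd U hs hg
  rw [← e] at h2
  exact hT Z (M.k3 (a n)) N U' (V (a n)) (a n) ((hV (a n)).1.trans h1.symm) (h1 ▸ hG) h2
    (hV (a n)).2.1

end Vale.Agent.P290Z.Top
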