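import Vale.Agent.P290Z.Top.HR
import Vale.Agent.P290.H362.F2Asm
import Vale.Agent.P290.H445.Final
import Vale.Agent.P267.H221.RRMain

/-! P290Z, part III: K3 surfaces with an isotropic class of type `(1,1)`. -/

noncomputable section

namespace Vale.Agent.P290Z.Top

open Vale.Agent.P290 Vale.Agent.P267 Vale.Agent.P290Z.W
open Vale.Agent.P290.H342 Vale.Agent.P290.H726 Vale.Agent.P290Z.Lat

/-- **ELL** -/
theorem ell : StEll := by
  intro X N U s hG hs hn
  have hB : ∀ k l, U.B k l = bil U.G k l := fun k l => by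
    rw [U.B_apply, bil]
    exact Finset.sum_congr rfl fun i _ => Finset.sum_congr rfl fun j _ => by
      simp only [Int.cast_id]
      ring
  rw [NoIso] at hn
  push Not at hn
  obtain ⟨e, h1, h2, h3⟩ := hn
  have h4 := HR.pair_coord U (HR.omF_mem (toW X)) hs (t := cs ℂ e) (G := U.comb e) (by
    have : U.comb e - U.combC (cs ℂ e) = 0 := sub_self _
    rw [this]
    exact exactTwo_zero)
  rw [h2, mul_zero] at h4
  exact H445.goal_of_rrBlock RR.rrBlock X (H362.elliptic_of_period (Z := X)
    ⟨fun Y => (RR.rrBlock Y.X).1, fun Y => (RR.rrBlock Y.X).2.1, fun Y => (RR.rrBlock Y.X).2.2.1⟩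
    U (fun k => (hB k k).symm ▸ hG.even k) h3 ((hB e e).trans h1) h4)

end Vale.Agent.P290Z.Top
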