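import Vale.Agent.P290Z.Spec3

/-! P290Z, part III, FAM: the Kuranishi family with the markings of its members. -/

open Set Filter Metric
open scoped Topology Manifold ContDiff

namespace Vale.Agent.P290Z.Top

open Vale.Agent.P290 Vale.Agent.P267
open Vale.Agent.P290Z.W Vale.Agent.P290Z.W.Kur Vale.Agent.P290Z.W.BR
open Vale.Agent.P290.H686 (pb2 uTrans pb2_combC exactTwo_pb2_iff pb2_sub)

/-- FAM from the Kuranishi family and the existence of taming forms -/
theorem fam (hK : StKur) (hT : StTame) : StFam := by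
  intro Z N U s hs
  obtain ⟨P, hP, ⟨h, hh, hPh⟩, -, -⟩ := hT Z
  obtain ⟨r, hr, M, h₀, h1, -, h3⟩ := hK Z P h hP.1 hP.2.1 hh hPh N U s hs
  refine ⟨r, hr, M, h₀, fun t => uTrans (M.homeo t) (M.diffeo t) U, h3, fun t =>
    ⟨rfl, ?_, fun k => pb2_combC (M.homeo t) (M.diffeo t) U k⟩⟩
  have h4 := (h1 t (M.sub t.2)).2
  rw [M.sig_eq t, ← pb2_combC (M.homeo t) (M.diffeo t) U, ← pb2_sub,
    exactTwo_pb2_iff (M.homeo t) (M.diffeo t)] at h4
  exact h4

end Vale.Agent.P290Z.Top
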