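import Vale.Agent.P290Z.Cov.Main
import Vale.Agent.P290Z.Nk.Spec
import Vale.Agent.P290Z.N.LKm

/-! P290Z, part III: even sets of curves from the periods, and the theorem of Nikulin. -/

open Set

noncomputable section

namespace Vale.Agent.P290Z.Top

open Vale.Agent.P290 Vale.Agent.P267 Vale.Agent.P290Z.W Vale.Agent.P290Z.Nk
open Vale.Agent.P290.H342 Vale.Agent.P290.H726 Vale.Agent.P290Z.Lat

theorem nse_geo {Y : W.K3} {N n : ℕ} {U : UData Y.X N} {s : Fin N → ℂ} (hs : Prd Y U s)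
    (h : P290Z.N.NSE U.G s n) : ∃ e : Fin n → Fin N → ℤ, Nk.NSE U e := by
  have hB : ∀ k l, U.B k l = bil U.G k l := fun k l => by
    rw [U.B_apply, bil]
    exact Finset.sum_congr rfl fun i _ => Finset.sum_congr rfl fun j _ => by
      simp only [Int.cast_id]
      ring
  have hN : ∀ v, IsNS U v ↔ bil U.G s (Orb.ic v) = 0 := fun v => by
    have h1 := HR.pair_coord U (HR.omF_mem Y) hs (t := Orb.ic v) (G := U.comb v) (by
      have : U.comb v - U.combC (Orb.ic v) = 0 := sub_self _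
      rw [this]
      exact exactTwo_zero)
    change BlockC.pair (Kur.omF Y) (U.comb v) = 0 ↔ _
    rw [h1, mul_eq_zero, or_iff_right HR.pi_ne]
  obtain ⟨r, h1, h2, ⟨m, h3⟩, h4, h5⟩ := h
  refine ⟨r, fun i => (hN _).2 (h1 i), fun i j => by rw [hB, h2], ⟨m, by rw [← h3, two_smul]⟩,
    fun x hx hx' => h4 x ((hN x).1 hx) (by rw [← hB, hx']),
    fun x hx hx' => h5 x ((hN x).1 hx) fun i => by rw [← hB, hx']⟩

theorem eight (h1 : StN1) : Cov.StEight := by
  intro Y N U κ s hs hg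
  obtain ⟨e, he⟩ := nse_geo hs (nse_of_genN κ hg)
  obtain ⟨K, -⟩ := h1 Y N 8 U e he
  exact ⟨K⟩

theorem nik (h1 : StN1) (hN : StNbhd) (hC : StCover) (hT : StTorus) (hK : StKummer) : StNik := by
  intro Y N U κ s hs hg
  obtain ⟨e, he⟩ := nse_geo hs (nse_of_genK κ hg)
  obtain ⟨K, -⟩ := h1 Y N 16 U e he
  obtain ⟨A⟩ := hN Y 16 K
  obtain ⟨D⟩ := hC Y 16 K A (by norm_num)
  obtain ⟨l, π, hπ⟩ := hT Y K A D
  obtain ⟨M, -⟩ := hK Y 16 K A D l π hπ
  exact ⟨l, hπ.li, ⟨M⟩⟩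

end Vale.Agent.P290Z.Top
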