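import Vale.Agent.P290Z.Spec3

/-! P290Z, part III: biholomorphic maps preserve the Oka property; surfaces near Kummer surfaces
are Oka. -/

set_option linter.all false

open Set Filter Metric
open scoped Topology Manifold ContDiff

noncomputable section

namespace Vale.Agent.P290Z.Top

open Vale.Agent.P290 Vale.Agent.P290.H805 Vale.Agent.P267
open Vale.Agent.P290Z.W Vale.Agent.P290Z.W.Kur Vale.Agent.P290Z.W.BR

theorem oka_comp {X Y : Type} [TopologicalSpace X] [ChartedSpace All.C2 X] [TopologicalSpace Y]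
    [ChartedSpace All.C2 Y] {b : X → Y} {m : ℕ} {G : (Fin m → ℂ) → X} {z : Fin m → ℂ}
    (hb : All.Hol b (G z)) (hG : All.HolV G z) : All.HolV (fun y => b (G y)) z := by
  refine ⟨ContinuousAt.comp (g := b) (f := G) hb.1 hG.1, (DifferentiableAt.comp
    (g := fun w => chartAt All.C2 (b (G z)) (b ((chartAt All.C2 (G z)).symm w)))
    (f := fun y => chartAt All.C2 (G z) (G y)) z hb.2 hG.2).congr_of_eventuallyEq ?_⟩
  filter_upwards [hG.1.eventually
    ((chartAt All.C2 (G z)).open_source.mem_nhds (mem_chart_source All.C2 (G z)))] with y hy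
  rw [Function.comp_apply, (chartAt All.C2 (G z)).left_inv hy]

theorem oka_bih (Z Z' : W.K3) (e : Z.X ≃ₜ Z'.X) (he : Bih e) (h : All.IsOka Z'.X) :
    All.IsOka Z.X := by
  intro m K U hm hK hc hne hU hKU f hf d hd h0 ε hε
  obtain ⟨F, h1, h2⟩ := h m K U hm hK hc hne hU hKU (fun z => e (f z))
    (fun z hz => oka_comp (he.1 _) (hf z hz)) (fun a b => d (e.symm a) (e.symm b))
    (hd.comp ((e.symm.continuous.comp continuous_fst).prodMk
      (e.symm.continuous.comp continuous_snd))) (fun x => h0 _) ε hε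
  exact ⟨fun z => e.symm (F z), fun z => oka_comp (he.2 _) (h1 z),
    fun z hz => by simpa only [e.symm_apply_apply] using h2 z hz⟩

theorem oka (hB : StB) (hBase : StBase) (hK : StKum) : StOka := by
  refine ⟨oka_bih, ?_⟩
  rintro Z ⟨X, T, _, _, M, s, a, h1, h2, h3⟩
  obtain ⟨n, hn⟩ := (h2.eventually (hBase T _ M.F M.isProperMap_p M.vol M.rel s
    (hK T _ M.F M.vol M.rel s h1))).exists
  obtain ⟨e, he⟩ := h3 n
  exact oka_bih Z _ e he (hB (M.k3 (a n)).X hn)

end Vale.Agent.P290Z.Top
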