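import Vale.Agent.P290Z.Spec3

/-! P290Z, part III: the Torelli theorem from the case of generic Kummer surfaces. -/

set_option linter.all false

open Set Filter Metric
open scoped Topology Manifold ContDiff

noncomputable section

namespace Vale.Agent.P290Z.Top

open Vale.Agent.P290 Vale.Agent.P290.H805 Vale.Agent.P267
open Vale.Agent.P290Z.W Vale.Agent.P290Z.W.Kur Vale.Agent.P290Z.W.BR Vale.Agent.P290Z.Lat
open Vale.Agent.P290.H726 (bil)
open Vale.Agent.P290.H342 (UData)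
open Vale.Agent.P267.FL (TwoF)
open Vale.Agent.P267.BlockC (pair ExactTwo)
open Vale.Agent.P290.H686

namespace TorX

theorem hol_comp {A B C : W.K3} {f : A.X → B.X} {g : B.X → C.X} {x : A.X} (hg : All.Hol g (f x))
    (hf : All.Hol f x) : All.Hol (fun y => g (f y)) x := by
  refine ⟨hg.1.comp hf.1, ?_⟩
  have e : chartAt All.C2 (f x) (f ((chartAt All.C2 x).symm (chartAt All.C2 x x))) =
      chartAt All.C2 (f x) (f x) := by rw [(chartAt All.C2 x).left_inv (mem_chart_source _ x)]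
  have h1 := hg.2
  rw [← e] at h1
  refine (DifferentiableAt.comp (chartAt All.C2 x x) (f := fun z =>
    chartAt All.C2 (f x) (f ((chartAt All.C2 x).symm z))) h1 hf.2).congr_of_eventuallyEq ?_
  have h2 := (chartAt All.C2 x).symm.continuousAt (mem_chart_target All.C2 x)
  rw [ContinuousAt, (chartAt All.C2 x).left_inv (mem_chart_source _ x)] at h2
  filter_upwards [h2.eventually (hf.1.eventually
    ((chartAt All.C2 (f x)).open_source.mem_nhds (mem_chart_source _ _)))] with z hz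
  exact congrArg (fun y => chartAt All.C2 (g (f x)) (g y)) ((chartAt All.C2 (f x)).left_inv hz).symm

theorem bih_trans {A B C : W.K3} {e : A.X ≃ₜ B.X} {e' : B.X ≃ₜ C.X} (h : Bih e) (h' : Bih e') :
    Bih (e.trans e') :=
  ⟨fun x => hol_comp (f := e) (g := e') (h'.1 _) (h.1 x),
    fun y => hol_comp (f := e'.symm) (g := e.symm) (h.2 _) (h'.2 y)⟩

theorem bih_symm {A B : W.K3} {e : A.X ≃ₜ B.X} (h : Bih e) : Bih e.symm := ⟨h.2, h.1⟩

theorem scr_pb {A B : W.K3} {φ : A.X → B.X} (h : IsSm φ) {P : TwoF B.X} (hP : SCR P) :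
    SCR (pb2 φ P) := ⟨pb2_smooth h hP.1, pb2_closed h hP.1 hP.2.1, pb2_real φ hP.2.2⟩

theorem genK_cast {N : ℕ} {G G' : Matrix (Fin N) (Fin N) ℤ} (e : G' = G) {p : Fin N → ℂ}
    (h : ∃ κ : KConf G, GenK κ p) : ∃ κ : KConf G', GenK κ p := e ▸ h

variable {Z Z' : W.K3} {V V' : Type} [NormedAddCommGroup V] [NormedSpace ℝ V]
  [NormedAddCommGroup V'] [NormedSpace ℝ V'] {T : Set V} {T' : Set V'}

theorem exists_tame (hT : StTame) (M : MFam Z V T) (s : T) :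
    ∃ P : TwoF Z.X, SCR P ∧ Tames (push M.toMPre s P) := by
  obtain ⟨P, h1, h2, -⟩ := hT (M.k3 s)
  exact ⟨_, scr_pb (M.diffeo s).smooth h1, by rwa [push, pb2_symm_pb2 _ (M.diffeo s)]⟩

theorem exact_push (M : MFam Z V T) (t : T) {P Q : TwoF Z.X} {R : TwoF (M.k3 t).X}
    (h : pb2 (M.homeo t) R = Q) (e : ExactTwo (P - Q)) : ExactTwo (push M.toMPre t P - R) := by
  rwa [← exactTwo_pb2_iff _ (M.diffeo t), pb2_sub, push, pb2_pb2_symm _ (M.diffeo t), h]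

theorem pair_psi (M : MFam Z V T) (M' : MFam Z' V' T') {t : T} {t' : T'}
    {f : (M.k3 t).X ≃ₜ (M'.k3 t').X} (hf : IsSm f) {P : TwoF Z.X} {P' : TwoF Z'.X}
    (hP : P.Smooth) (hP' : P'.Smooth) : pair P (pb2 (psi M.toMPre M'.toMPre f) P') =
      pair (push M.toMPre t P) (pb2 f (push M'.toMPre t' P')) := by
  rw [push, push, ← pair_pb2 _ (M.diffeo t) (pb2_smooth (M.diffeo t).smooth' hP)
    (pb2_smooth hf (pb2_smooth (M'.diffeo t').smooth' hP')), pb2_pb2_symm _ (M.diffeo t),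
    ← pb2_comp (M'.diffeo t').smooth' hf,
    ← pb2_comp ((M'.diffeo t').smooth'.comp hf) (M.diffeo t).smooth]
  rfl

end TorX

open TorX

theorem tor (hF : StFam) (hH : StHR) (hD : StDens) (hK : StTorK) (hT : StTame) (hO : StTameOpen)
    (hB : StBih) (hR : StBR) : StTor := by
  intro Z Z' N U U' s hG hL hs hs'
  obtain ⟨r, hr, M, h, W, hb, hW⟩ := hF Z N U s hs
  obtain ⟨r', hr', M', h', W', hb', hW'⟩ := hF Z' N U' s hs'
  obtain ⟨P, hP, tP⟩ := exists_tame hT M ⟨s, h⟩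
  obtain ⟨P', hP', tP'⟩ := exists_tame hT M' ⟨s, h'⟩
  obtain ⟨k, hk, -⟩ := U.span P hP.1 hP.2.1
  obtain ⟨k', hk', -⟩ := U'.span P' hP'.1 hP'.2.1
  obtain ⟨p, hp, lp⟩ := mem_closure_iff_seq_limit.1 (isOpen_ball.inter_closure
    ⟨mem_ball_self (lt_min hr hr'), hD _ U.G hL s ((hH Z N U).2 s hs)⟩)
  have m1 : ∀ n, p n ∈ Cone U.G s r := fun n =>
    ⟨(hp n).2.1.1, (mem_ball_iff_norm.1 (hp n).1).trans_le (min_le_left _ _)⟩
  have m2 : ∀ n, p n ∈ Cone U'.G s r' := fun n =>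
    ⟨hG ▸ (hp n).2.1.1, (mem_ball_iff_norm.1 (hp n).1).trans_le (min_le_right _ _)⟩
  have l1 : Tendsto (fun n => (⟨p n, m1 n⟩ : Cone U.G s r)) atTop (𝓝 ⟨s, h⟩) :=
    tendsto_subtype_rng.2 lp
  have l2 : Tendsto (fun n => (⟨p n, m2 n⟩ : Cone U'.G s r')) atTop (𝓝 ⟨s, h'⟩) :=
    tendsto_subtype_rng.2 lp
  obtain ⟨n₀, hn⟩ := eventually_atTop.1 ((l1.eventually (hO _ _ _ M P hP.1 hP.2.2 _ tP)).and
    (l2.eventually (hO _ _ _ M' P' hP'.1 hP'.2.2 _ tP')))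
  have key : ∀ n, ∃ f : (M.k3 ⟨p (n + n₀), m1 _⟩).X ≃ₜ (M'.k3 ⟨p (n + n₀), m2 _⟩).X, Bih f ∧
      (pair P (pb2 (psi M.toMPre M'.toMPre f) P')).re ≤ 4 * Real.pi ^ 2 * ‖bil U.G k k'‖ := by
    intro n
    obtain ⟨a1, a2, a3⟩ := hW ⟨p (n + n₀), m1 _⟩
    obtain ⟨b1, b2, b3⟩ := hW' ⟨p (n + n₀), m2 _⟩
    obtain ⟨κ, hκ⟩ := genK_cast a1 (hp (n + n₀)).2.2
    obtain ⟨f, hf, h3⟩ := hK _ _ N _ _ κ _ (b1.trans (hG.trans a1.symm)) a2 b2 hκ
    refine ⟨f, hf, ?_⟩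
    rw [a1] at h3
    rw [pair_psi M M' (hB _ _ f hf).smooth hP.1 hP'.1]
    exact h3 _ _ k k' (scr_pb (M.diffeo _).smooth' hP) (hn _ (Nat.le_add_left _ _)).1
      (scr_pb (M'.diffeo _).smooth' hP') (hn _ (Nat.le_add_left _ _)).2
      (exact_push M _ (a3 k) hk) (exact_push M' _ (b3 k') hk')
  choose f hf hc using key
  obtain ⟨e, he⟩ := hR _ _ _ _ _ _ M M' _ _ P P' hP hP' tP tP' _ _
    (l1.comp (tendsto_add_atTop_nat n₀)) (l2.comp (tendsto_add_atTop_nat n₀)) f hf _ hc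
  exact ⟨_, bih_trans (bih_trans hb he) (bih_symm hb')⟩

end Vale.Agent.P290Z.Top
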