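import Vale.Agent.P290Z.Top.Final
import Vale.Agent.P290Z.Top.Rem
import Vale.Agent.P290Z.Top.Ell
import Vale.Agent.P290Z.Top.Oka
import Vale.Agent.P290Z.Top.Fam
import Vale.Agent.P290Z.Top.AK
import Vale.Agent.P290Z.Top.Tor
import Vale.Agent.P290Z.Top.Nik
import Vale.Agent.P290Z.Main
import Vale.Agent.P290Z.Odd.Top
import Vale.Agent.P290Z.KT.Main
import Vale.Agent.P290Z.W.KurMain
import Vale.Agent.P290Z.W.BRAll
import Vale.Agent.P290Z.W.BRTame
import Vale.Agent.P290Z.W.BRBih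
import Vale.Agent.P290Z.Lat.Conf
import Vale.Agent.P290Z.Lat.Top
import Vale.Agent.P290Z.Lat.SigU
import Vale.Agent.P290Z.Lat.EvenU
import Vale.Agent.P290Z.Lat.Rank
import Vale.Agent.P290Z.Nk.Main
import Vale.Agent.P290Z.Nk.N1
import Vale.Agent.P290Z.Cov.Max
import Vale.Agent.P290Z.Cov.Cech
import Vale.Agent.P290Z.Cov.Van
import Vale.Agent.P290Z.Cov.Trace
import Vale.Agent.P290Z.Cov.Small
import Vale.Agent.P290Z.Cov.Triv
import Vale.Agent.P290Z.Cov.Ext
import Vale.Agent.P290Z.Cov.Pb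
import Vale.Agent.P290Z.Cov.Vol

/-! P290Z: every K3 surface is Oka. -/

namespace Vale.Agent.P290Z.Top

open Vale.Agent.P290

theorem lat0 : StLat :=
  Lat.lat (Lat.evenU W.BR.tame W.Kur.kur0_main) (Lat.sigU W.BR.tame) Lat.rank

theorem fam0 : StFam := fam W.Kur.kur_main W.BR.tame

theorem nik0 : StNik := nik Nk.n1 Nk.nbhd' Nk.cover Nk.torus' (Nk.kummer Nk.oddFn)

theorem tor0 : StTor :=
  tor fam0 hr dens (KT.tork_main nik0) W.BR.tame W.BR.stTameOpen W.BR.bih W.BR.stBR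

theorem cov0 : StCov :=
  Cov.cov (eight Nk.n1) Nk.nbhd' Nk.cover Cov.max Cov.cech Cov.van Cov.trace Cov.small
    (Cov.ext Cov.sq Cov.triv) (Cov.pb Cov.sq) Cov.vol

/-- every K3 surface is Oka -/
theorem all (X : All.K3) : All.IsOka X.X :=
  final lat0 hr rem ell fam0 tor0 (ak fam0 rem nik0 tor0) (oka thmB0 base0 kum) cov0 Odd.stII2 apx
    apxZ X

end Vale.Agent.P290Z.Top
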