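import Vale.Agent.P290Z.Spec3

/-! P290Z, part III: the final assembly. -/

open Set Filter Metric
open scoped Topology Manifold ContDiff

noncomputable section

namespace Vale.Agent.P290Z.Top

open Vale.Agent.P290 Vale.Agent.P290.H805 Vale.Agent.P267
open Vale.Agent.P290Z.W Vale.Agent.P290Z.W.Kur Vale.Agent.P290Z.W.BR Vale.Agent.P290Z.Lat
open Vale.Agent.P290.H726 (bil)
open Vale.Agent.P290.H342 (UData)
open Vale.Agent.P267.FL (TwoF)
open Vale.Agent.P267.BlockC (pair ExactTwo)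

namespace Fin

theorem omF_scale (Z : W.K3) (c : ℂ) (hc : c ≠ 0) : omF (scale Z c hc) = c • omF Z := by
  have h1 : (c • omF Z).f20 = c • (omF Z).f20 := TwoF.f20_smul _ _
  have h2 : (c • omF Z).f11 = c • (omF Z).f11 := TwoF.f11_smul _ _
  have h3 : (c • omF Z).f02 = c • (omF Z).f02 := TwoF.f02_smul _ _
  have h4 : ∀ F G : TwoF Z.X, F.f20 = G.f20 → F.f11 = G.f11 → F.f02 = G.f02 → F = G := by
    rintro ⟨a, b, d⟩ ⟨a', b', d'⟩ h h' h''
    simp only at h h' h''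
    rw [h, h', h'']
  refine h4 _ _ ?_ ?_ ?_
  · rw [h1]; rfl
  · rw [h2]; funext x; exact (smul_zero c).symm
  · rw [h3]; funext x; exact (smul_zero c).symm

theorem prd_scale {Z : W.K3} {N : ℕ} {U : UData Z.X N} {s : Fin N → ℂ} (h : Prd Z U s) (c : ℂ)
    (hc : c ≠ 0) : Prd (scale Z c hc) U (c • s) := by
  have h1 := H342.exact_smul c h
  rw [smul_sub, ← U.combC_smul] at h1
  have h2 := omF_scale Z c hc
  unfold Prd
  rw [h2]
  exact h1

theorem prd_rem (hR : StRem) {Z : W.K3} {N : ℕ} {U : UData Z.X N} {s : Fin N → ℂ} (h : Prd Z U s)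
    {g : Matrix (Fin N) (Fin N) ℤ} (hg : Isom U.G U.G g) :
    ∃ U' : UData Z.X N, U'.G = U.G ∧ Prd Z U' (act g s) := by
  obtain ⟨U', h1, h2⟩ := hR Z N U g hg
  refine ⟨U', h1, ?_⟩
  have h3 := H342.exact_sub h (h2 s)
  rw [Prd]
  convert h3 using 1
  abel

/-- the odd case -/
theorem odd (hL : StLat) (hH : StHR) (hR : StRem) (hF : StFam) (hT : StTor) (hA : StAK)
    (hO : StOka) (hC : StCov) (h2 : StII2) (hZ : StApxZ) {X : W.K3} {N : ℕ} {U : UData X.X N}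
    {s : Fin N → ℂ} (hG : IsK3L U.G) (hs : Prd X U s) (h : ApxN U.G s) : All.IsOka X.X := by
  obtain ⟨r, hr, M, h0, V, -, hV⟩ := hF X N U s hs
  obtain ⟨v, w, d, hcl, hn, hp, hd, hv, hE, κ, hκ⟩ := h r hr
  set t : Cone U.G s r := ⟨pt v w, hp.1, hn⟩ with ht
  obtain ⟨h1, h3, -⟩ := hV t
  have h20 : bil (V t).G v v = 2 * d ∧ Extra (V t).G w ∧ ∃ κ : KConf (V t).G, GenN κ (pt v w) := by
    rw [h1]
    exact ⟨hv, hE, κ, hκ⟩
  obtain ⟨h21, h22, κ', h23⟩ := h20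
  obtain ⟨Z, hc, hz⟩ := hC (M.k3 t) N (V t) κ' v w d h3 h21 h22 h23
  obtain ⟨N', U', hG'⟩ := hL Z
  obtain ⟨t', w', h4, h5, h6⟩ := hz N' U'
  obtain ⟨l, hl, h7⟩ := hZ _ U'.G hG' t' w' d ((hH Z N' U').2 _ h4) hd h5 h6
  have h8 : AK Z := hA (scale Z l hl) N' U' _ hG' (prd_scale h4 l hl) h7
  have h9 := h2 Z X _ M.toMPre t h8 hc
  obtain ⟨δ, hδ, h10⟩ := Metric.eventually_nhds_iff.1 h9
  have hδ' : 0 < min δ (r - ‖pt v w - s‖) := lt_min hδ (sub_pos.2 hn)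
  obtain ⟨_, ⟨g, hg, -, rfl⟩, h11⟩ := Metric.mem_closure_iff.1 hcl _ hδ'
  obtain ⟨U₁, h12, h13⟩ := prd_rem hR hs hg
  have h14 : act g s ∈ Cone U.G s r := by
    refine ⟨?_, ?_⟩
    · have := ((hH X N U₁).2 _ h13).1
      rwa [h12] at this
    · have h15 : ‖act g s - s‖ ≤ ‖act g s - pt v w‖ + ‖pt v w - s‖ := norm_sub_le_norm_sub_add_norm_sub _ _ _
      have h16 := (lt_min_iff.1 h11).2
      rw [dist_comm, dist_eq_norm] at h16
      linarith
  have h17 := h10 (y := ⟨act g s, h14⟩) (by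
    rw [Subtype.dist_eq, dist_comm]
    exact (lt_min_iff.1 h11).1)
  obtain ⟨h18, h19, -⟩ := hV ⟨act g s, h14⟩
  obtain ⟨f, hf⟩ := hT X _ N U₁ (V ⟨act g s, h14⟩) _ (h18.trans h12.symm) (h12 ▸ hG) h13 h19
  exact hO.1 _ _ f hf h17

end Fin

/-- every K3 surface is Oka -/
theorem final (hL : StLat) (hH : StHR) (hR : StRem) (hE : StEll) (hF : StFam) (hT : StTor)
    (hA : StAK) (hO : StOka) (hC : StCov) (h2 : StII2) (hX : StApx) (hZ : StApxZ) (X : All.K3) :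
    All.IsOka X.X := by
  obtain ⟨N, U, hG⟩ := hL (toW X)
  obtain ⟨s, hs⟩ := (hH _ N U).1
  by_cases hn : NoIso U.G s
  · obtain ⟨l, hl, h⟩ := hX _ U.G hG s ((hH _ N U).2 s hs) hn
    have h1 := Fin.prd_scale hs l hl
    rcases h with h | h
    · exact hO.2 _ (hA (scale (toW X) l hl) N U _ hG h1 h)
    · exact Fin.odd hL hH hR hF hT hA hO hC h2 hZ (X := scale (toW X) l hl) hG h1 h
  · exact hE X N U s hG hs hn

end Vale.Agent.P290Z.Top
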